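import Vale.Agent.H15.P054.Final

/-!
# P054: distinct distances of dense subsets of the integer grid, every dimension at least 3

Let d ≥ 3, N ≥ 1 and let P be a finite set of points of Euclidean d-space all of whose
coordinates are integers in [0, N]; write n for the number of points of P.

* (A) For every x ∈ P, the number D of distinct distances from x to the other points of
  P satisfies (n - 1) ^ 2 ≤ 8208 * 25 ^ (d - 3) * N ^ (2 * d - 2) * D.
* (B) If n ≥ 2 and n ≥ δ * N ^ d with δ > 0, then the number of distinct distances from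
  every single point x of P to the other points of P, and hence the number of distinct
  distances between distinct points of P, is at least
  δ ^ 2 / (16 * (8208 * 25 ^ (d - 3))) * n ^ (2 / d) (real exponent).

The statement uses Mathlib notions only: (P.erase x).image (dist x) is the set of distances
from x to the other points of P, and P.offDiag.image (fun t => dist t.1 t.2) is the set
of distances between distinct points of P.
-/

namespace Vale.Agent.Results.P054.A_DenseGridSubsets

theorem result (d : ℕ) (hd : 3 ≤ d) (N : ℕ) (hN : 1 ≤ N)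
    (P : Finset (EuclideanSpace ℝ (Fin d)))
    (hP : ∀ p ∈ P, ∀ i, ∃ k : ℤ, p i = (k : ℝ) ∧ 0 ≤ k ∧ k ≤ (N : ℤ)) :
    (∀ x ∈ P, ((P.card : ℝ) - 1) ^ 2 ≤
        8208 * 25 ^ (d - 3) * (N : ℝ) ^ (2 * d - 2) *
          (((P.erase x).image (dist x)).card : ℝ)) ∧
    (∀ δ : ℝ, 0 < δ → 2 ≤ P.card → δ * (N : ℝ) ^ d ≤ (P.card : ℝ) →
        (∀ x ∈ P,
          δ ^ 2 / (16 * (8208 * 25 ^ (d - 3))) * (P.card : ℝ) ^ ((2 : ℝ) / (d : ℝ)) ≤
            (((P.erase x).image (dist x)).card : ℝ)) ∧
        δ ^ 2 / (16 * (8208 * 25 ^ (d - 3))) * (P.card : ℝ) ^ ((2 : ℝ) / (d : ℝ)) ≤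
          ((P.offDiag.image (fun t => dist t.1 t.2)).card : ℝ)) :=
  Vale.Agent.H15.P054.final_statement d hd N hN P hP

end Vale.Agent.Results.P054.A_DenseGridSubsets
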